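import Vale.Agent.P002.Free.NormalForm

/-!
# P002: a form of a matrix defined over a ring containing its eigenvalues
-/

namespace Vale.Agent.P002.Surface

open Module Submodule Vale.Agent.P002.Free

/-- A matrix is similar to one with entries in any ring containing its eigenvalues. -/
theorem exists_eigen_form {n : Type} [Fintype n] [DecidableEq n] (A : Matrix n n ℂ)
    (R : Subring ℂ) (hR : ∀ z : ℂ, A.charpoly.IsRoot z → z ∈ R) :
    ∃ P J : Matrix n n ℂ, P.det ≠ 0 ∧ A * P = P * J ∧ ∀ i j, J i j ∈ R := by
  classical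
  let f : Module.End ℂ (n → ℂ) := Matrix.toLinAlgEquiv' A
  have hint : DirectSum.IsInternal fun μ => f.maxGenEigenspace μ :=
    (DirectSum.isInternal_submodule_iff_iSupIndep_and_iSup_eq_top _).2
      ⟨f.independent_maxGenEigenspace, f.iSup_maxGenEigenspace_eq_top⟩
  have hblock : ∀ μ, ∃ (ι : Type) (_ : Fintype ι) (b : Basis ι ℂ (f.maxGenEigenspace μ)),
      ∀ i k, b.repr (f.restrict (Module.End.mapsTo_maxGenEigenspace_of_comm (Commute.refl f) μ)
        (b i)) k ∈ R := by
    intro μ
    have hstab : ∀ v ∈ f.maxGenEigenspace μ, (f - algebraMap ℂ _ μ) v ∈ f.maxGenEigenspace μ :=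
      Module.End.mapsTo_maxGenEigenspace_of_comm
        ((Commute.refl f).sub_right (Algebra.commute_algebraMap_right μ f)) μ
    obtain ⟨ι, hι, b, hb, -⟩ := exists_chain_basis _ ((f - algebraMap ℂ _ μ).restrict hstab) rfl
      (Module.End.isNilpotent_restrict_maxGenEigenspace_sub_algebraMap f μ)
    refine ⟨ι, hι, b, fun i k => ?_⟩
    have hμ : μ ∈ R := by
      refine hR μ ?_
      have hv : f.HasEigenvalue μ := by
        refine Module.End.HasUnifEigenvalue.lt (k := ⊤) (by simp) ?_
        exact fun h => b.ne_zero i (Subtype.ext ((Submodule.mem_bot ℂ).1 (h ▸ (b i).2)))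
      have h := (Module.End.hasEigenvalue_iff_isRoot_charpoly f μ).1 hv
      have e : f.charpoly = A.charpoly := by
        rw [← Matrix.charpoly_toLin' A]
        rfl
      rwa [e] at h
    have e : f.restrict (Module.End.mapsTo_maxGenEigenspace_of_comm (Commute.refl f) μ) (b i) =
        μ • b i + (f - algebraMap ℂ _ μ).restrict hstab (b i) := Subtype.ext (by
      simp [Module.algebraMap_end_apply]
      rfl)
    rw [e, map_add, map_smul, Finsupp.add_apply, Finsupp.smul_apply, b.repr_self]
    refine add_mem ?_ ?_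
    · rw [Finsupp.single_apply]
      split_ifs <;> simp [hμ]
    · rcases hb i with h | ⟨j, h⟩
      · simp [h]
      · rw [h, b.repr_self, Finsupp.single_apply]
        split_ifs <;> simp
  choose ι hι b hb using hblock
  let B := hint.collectedBasis b
  have : Fintype (Σ μ, ι μ) := @Fintype.ofFinite _ (Module.Finite.finite_basis B)
  have hcard : Fintype.card (Σ μ, ι μ) = Fintype.card n := by
    rw [← Module.finrank_eq_card_basis B, Module.finrank_fintype_fun_eq_card]
  let C := B.reindex (Fintype.equivOfCardEq hcard)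
  refine ⟨(Pi.basisFun ℂ n).toMatrix C, LinearMap.toMatrix C C f, ?_, ?_, fun i j => ?_⟩
  · have := (Pi.basisFun ℂ n).invertibleToMatrix C
    exact (Matrix.isUnit_det_of_invertible _).ne_zero
  · have hA' : A = LinearMap.toMatrix (Pi.basisFun ℂ n) (Pi.basisFun ℂ n) f := by
      ext i j
      simp [f, LinearMap.toMatrix_apply]
    conv_lhs => rw [hA']
    rw [linearMap_toMatrix_mul_basis_toMatrix, basis_toMatrix_mul_linearMap_toMatrix]
  · rw [LinearMap.toMatrix_apply]
    simp only [C, Basis.reindex_apply, Basis.repr_reindex, Finsupp.mapDomain_equiv_apply]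
    obtain ⟨ν, k⟩ := (Fintype.equivOfCardEq hcard).symm j
    obtain ⟨μ, l⟩ := (Fintype.equivOfCardEq hcard).symm i
    rw [hint.collectedBasis_coe]
    have hmem : f (b ν k : n → ℂ) ∈ f.maxGenEigenspace ν :=
      Module.End.mapsTo_maxGenEigenspace_of_comm (Commute.refl f) ν (b ν k).2
    rcases eq_or_ne ν μ with rfl | hne
    · rw [hint.collectedBasis_repr_of_mem b hmem]
      exact hb ν k l
    · rw [hint.collectedBasis_repr_of_mem_ne b hne hmem]
      exact zero_mem _

end Vale.Agent.P002.Surface
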