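import Vale.Agent.P002.Surface.Linear
import Vale.Agent.P002.Surface.Form

/-!
# P002: parameter counts for pairs with a nonscalar commutant and for commutator fibres
-/

namespace Vale.Agent.P002.Surface

open Matrix Module Polynomial

variable {r : ℕ}

/-- `X` is not a scalar matrix. -/
def NonScalar (X : Matrix (Fin r) (Fin r) ℂ) : Prop := ∀ a : ℂ, X ≠ a • (1 : Matrix (Fin r) (Fin r) ℂ)

theorem exists_li_pair {X : Matrix (Fin r) (Fin r) ℂ} (hX : NonScalar X) :
    ∃ v : Fin r → ℂ, LinearIndependent ℂ ![v, X *ᵥ v] := by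
  by_contra h
  push Not at h
  obtain ⟨a, ha⟩ := LinearMap.exists_eq_smul_id_of_forall_notLinearIndependent
    (f := Matrix.toLin' X) fun v => by simpa [Matrix.toLin'_apply] using h v
  refine hX a ?_
  have := congrArg LinearMap.toMatrix' ha
  rwa [LinearMap.toMatrix'_toLin', map_smul, Module.End.one_eq_id, LinearMap.toMatrix'_id] at this

theorem finrank_span_pair {v w : Fin r → ℂ} (h : LinearIndependent ℂ ![v, w]) :
    finrank ℂ (Submodule.span ℂ ({v, w} : Set (Fin r → ℂ))) = 2 := by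
  have := finrank_span_eq_card h
  rwa [Matrix.range_cons, Matrix.range_cons, Matrix.range_empty, Set.union_empty,
    Set.singleton_union, Fintype.card_fin] at this

/-- The centraliser of a nonscalar matrix has dimension at most `(r - 1)² + 1`. -/
theorem finrank_sol_nonscalar {X : Matrix (Fin r) (Fin r) ℂ} (hX : NonScalar X) :
    finrank ℂ (sol X X) + 2 * r ≤ r * r + 2 := by
  classical
  obtain ⟨v, hv⟩ := exists_li_pair hX
  obtain ⟨u, hu⟩ := exists_li_pair (X := Xᵀ) fun a ha => hX a (by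
    have := congrArg Matrix.transpose ha
    simpa using this)
  rw [Matrix.mulVec_transpose] at hu
  have hPv := finrank_span_pair hv
  set Pv := Submodule.span ℂ ({v, X *ᵥ v} : Set (Fin r → ℂ))
  obtain ⟨U, hU⟩ := Pv.exists_isCompl
  have hUd : finrank ℂ U + 2 = r := by
    have := Submodule.finrank_add_eq_of_isCompl hU
    rw [hPv, Module.finrank_fintype_fun_eq_card, Fintype.card_fin] at this
    omega
  -- the common kernel of the two covectors
  let φ : (Fin r → ℂ) →ₗ[ℂ] (Fin 2 → ℂ) := Matrix.mulVecLin (Matrix.of ![u, u ᵥ* X])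
  let K2 := LinearMap.ker φ
  have hK2 : finrank ℂ K2 + 2 = r := by
    have hrank : finrank ℂ (LinearMap.range φ) = 2 := by
      have h1 : (Matrix.of ![u, u ᵥ* X]).rank = 2 := by
        rw [Matrix.rank_eq_finrank_span_row]
        have := finrank_span_eq_card hu
        rw [Fintype.card_fin] at this
        exact this
      exact h1
    have := LinearMap.finrank_range_add_finrank_ker φ
    rw [hrank, Module.finrank_fintype_fun_eq_card, Fintype.card_fin] at this
    have e : finrank ℂ K2 = finrank ℂ (LinearMap.ker φ) := rfl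
    omega
  -- first step
  let ev : (Fin r → ℂ) → sol X X →ₗ[ℂ] (Fin r → ℂ) := fun w =>
    { toFun := fun Z => (Z : Matrix (Fin r) (Fin r) ℂ) *ᵥ w
      map_add' := fun Z Z' => Matrix.add_mulVec _ _ _
      map_smul' := fun a Z => Matrix.smul_mulVec _ _ _ }
  let Φ : sol X X →ₗ[ℂ] (Fin r → ℂ) × (U →ₗ[ℂ] ℂ) := (ev v).prod
    { toFun := fun Z =>
        { toFun := fun w => u ⬝ᵥ ev w Z
          map_add' := fun w w' => by simp [ev, Matrix.mulVec_add, dotProduct_add]
          map_smul' := fun a w => by simp [ev, Matrix.mulVec_smul, dotProduct_smul] }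
      map_add' := fun Z Z' => LinearMap.ext fun w => by simp [dotProduct_add]
      map_smul' := fun a Z => LinearMap.ext fun w => by simp [dotProduct_smul] }
  have h1 := LinearMap.finrank_range_add_finrank_ker Φ
  have h2 : finrank ℂ (LinearMap.range Φ) ≤ r + finrank ℂ U := by
    refine (Submodule.finrank_le _).trans ?_
    rw [Module.finrank_prod, Module.finrank_fintype_fun_eq_card, Fintype.card_fin,
      Module.finrank_linearMap_self]
  -- what is killed by the first step
  have hker : ∀ Z ∈ LinearMap.ker Φ, ev v Z = 0 ∧ ev (X *ᵥ v) Z = 0 ∧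
      ∀ w, u ⬝ᵥ ev w Z = 0 := by
    intro Z hZ
    have hp := (Prod.ext_iff.1 hZ)
    have e1 : ev v Z = 0 := hp.1
    have hc : (Z : Matrix (Fin r) (Fin r) ℂ) * X = X * Z := (mem_sol.1 Z.2).symm
    have e2 : ev (X *ᵥ v) Z = 0 := by
      show (Z : Matrix (Fin r) (Fin r) ℂ) *ᵥ (X *ᵥ v) = 0
      rw [Matrix.mulVec_mulVec, hc, ← Matrix.mulVec_mulVec,
        show (Z : Matrix (Fin r) (Fin r) ℂ) *ᵥ v = 0 from e1, Matrix.mulVec_zero]
    refine ⟨e1, e2, fun w => ?_⟩
    obtain ⟨p, hp', q, hq, rfl⟩ := Submodule.mem_sup.1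
      ((codisjoint_iff.1 hU.codisjoint).symm ▸ Submodule.mem_top : w ∈ Pv ⊔ U)
    obtain ⟨α, β, rfl⟩ := Submodule.mem_span_pair.1 hp'
    have e3 : u ⬝ᵥ ev q Z = 0 := LinearMap.congr_fun hp.2 ⟨q, hq⟩
    simp only [ev, LinearMap.coe_mk, AddHom.coe_mk] at e1 e2 e3 ⊢
    simp [Matrix.mulVec_add, Matrix.mulVec_smul, e1, e2, e3]
  let Ψ : LinearMap.ker Φ →ₗ[ℂ] (U →ₗ[ℂ] K2) :=
    { toFun := fun Z =>
        { toFun := fun w => ⟨ev w Z.1, by
            obtain ⟨-, -, h⟩ := hker Z.1 Z.2
            rw [LinearMap.mem_ker]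
            funext i
            fin_cases i
            · exact h w
            · show (u ᵥ* X) ⬝ᵥ ((Z.1 : Matrix (Fin r) (Fin r) ℂ) *ᵥ (w : Fin r → ℂ)) = 0
              rw [← Matrix.dotProduct_mulVec, Matrix.mulVec_mulVec, mem_sol.1 Z.1.2,
                ← Matrix.mulVec_mulVec]
              exact h (X *ᵥ w)⟩
          map_add' := fun w w' => Subtype.ext (by simp [ev, Matrix.mulVec_add])
          map_smul' := fun a w => Subtype.ext (by simp [ev, Matrix.mulVec_smul]) }
      map_add' := fun Z Z' => LinearMap.ext fun w => Subtype.ext (by simp [ev, Matrix.add_mulVec])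
      map_smul' := fun a Z => LinearMap.ext fun w => Subtype.ext (by
        simp [ev]) }
  have hΨ : Function.Injective Ψ := by
    intro Z Z' hZ
    obtain ⟨e1, e2, -⟩ := hker Z.1 Z.2
    obtain ⟨f1, f2, -⟩ := hker Z'.1 Z'.2
    refine Subtype.ext (Subtype.ext (Matrix.toLin'.injective (LinearMap.ext fun w => ?_)))
    rw [Matrix.toLin'_apply, Matrix.toLin'_apply]
    obtain ⟨p, hp', q, hq, rfl⟩ := Submodule.mem_sup.1
      ((codisjoint_iff.1 hU.codisjoint).symm ▸ Submodule.mem_top : w ∈ Pv ⊔ U)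
    obtain ⟨α, β, rfl⟩ := Submodule.mem_span_pair.1 hp'
    have e3 : ev q Z.1 = ev q Z'.1 := congrArg Subtype.val (LinearMap.congr_fun hZ ⟨q, hq⟩)
    simp only [ev, LinearMap.coe_mk, AddHom.coe_mk] at e1 e2 e3 f1 f2
    simp [Matrix.mulVec_add, Matrix.mulVec_smul, e1, e2, e3, f1, f2]
  have h3 : finrank ℂ (LinearMap.ker Φ) ≤ finrank ℂ U * finrank ℂ K2 := by
    rw [← Module.finrank_linearMap ℂ ℂ]
    exact LinearMap.finrank_le_finrank_of_injective hΨ
  obtain ⟨s, hs⟩ : ∃ s, s = finrank ℂ U := ⟨_, rfl⟩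
  rw [← hs] at h2 h3 hUd
  rw [show finrank ℂ K2 = s by omega] at h3
  subst hUd
  nlinarith

theorem finrank_sol_conj {B₁ B₂ C₁ C₂ P Q : Matrix (Fin r) (Fin r) ℂ} (hP : P.det ≠ 0)
    (hQ : Q.det ≠ 0) (h₁ : C₁ * P = P * B₁) (h₂ : B₂ * Q = Q * C₂) :
    finrank ℂ (sol B₁ B₂) ≤ finrank ℂ (sol C₁ C₂) := by
  let f : sol B₁ B₂ →ₗ[ℂ] sol C₁ C₂ :=
    { toFun := fun Z => ⟨P * Z * Q, mem_sol.2 (by
        rw [← mul_assoc, ← mul_assoc, h₁, mul_assoc P, mem_sol.1 Z.2, mul_assoc, mul_assoc,
          mul_assoc, h₂, mul_assoc P])⟩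
      map_add' := fun Z Z' => Subtype.ext (by simp [mul_add, add_mul])
      map_smul' := fun a Z => Subtype.ext (by simp) }
  refine LinearMap.finrank_le_finrank_of_injective (f := f) ?_
  intro Z Z' h
  have h' := congrArg Subtype.val h
  exact Subtype.ext (((Matrix.isUnit_iff_isUnit_det P).2 (isUnit_iff_ne_zero.2 hP)).mul_left_cancel
    (((Matrix.isUnit_iff_isUnit_det Q).2 (isUnit_iff_ne_zero.2 hQ)).mul_right_cancel h'))

/-- Centralisers of similar matrices have equal dimension. -/
theorem finrank_sol_similar {X J P : Matrix (Fin r) (Fin r) ℂ} (hP : P.det ≠ 0)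
    (hX : X * P = P * J) : finrank ℂ (sol J J) = finrank ℂ (sol X X) := by
  have hu : IsUnit P.det := isUnit_iff_ne_zero.2 hP
  have hX' : J * P⁻¹ = P⁻¹ * X := by
    rw [← Matrix.mul_nonsing_inv_cancel_right _ (P⁻¹ * X) hu, mul_assoc P⁻¹ X P, hX,
      ← mul_assoc, Matrix.nonsing_inv_mul _ hu, one_mul]
  have hP' : P⁻¹.det ≠ 0 := by
    rw [Matrix.det_nonsing_inv, Ring.inverse_eq_inv']
    exact inv_ne_zero hP
  exact le_antisymm (finrank_sol_conj hP hP' hX hX') (finrank_sol_conj hP' hP hX' hX)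

/-- The roots of the characteristic polynomial are eigenvalues. -/
theorem exists_eigenvector {E : Matrix (Fin r) (Fin r) ℂ} {z : ℂ} (h : E.charpoly.IsRoot z) :
    ∃ v : Fin r → ℂ, v ≠ 0 ∧ E *ᵥ v = z • v := by
  have hev : Module.End.HasEigenvalue (Matrix.toLin' E) z := by
    rw [Module.End.hasEigenvalue_iff_isRoot_charpoly, Matrix.charpoly_toLin']
    exact h
  obtain ⟨v, hv⟩ := hev.exists_hasEigenvector
  exact ⟨v, hv.2, by simpa [Matrix.toLin'_apply] using hv.apply_eq_smul⟩

/-- A nonscalar commutant contains a nonscalar idempotent or square-zero matrix. -/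
theorem exists_special {A B T : Matrix (Fin r) (Fin r) ℂ} (hT : NonScalar T)
    (hA : T * A = A * T) (hB : T * B = B * T) :
    ∃ E : Matrix (Fin r) (Fin r) ℂ, NonScalar E ∧ E * A = A * E ∧ E * B = B * E ∧
      ∀ z : ℂ, E.charpoly.IsRoot z → z = 0 ∨ z = 1 := by
  have hr : Nonempty (Fin r) := by
    by_contra h
    rw [not_nonempty_iff] at h
    exact hT 0 (by ext i; exact isEmptyElim i)
  obtain ⟨lam, hlam⟩ := IsAlgClosed.exists_root T.charpoly (by
    rw [Matrix.charpoly_degree_eq_dim, Fintype.card_fin]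
    exact_mod_cast (Fin.pos_iff_nonempty.2 hr).ne')
  have hp0 : minpoly ℂ T ≠ 0 := minpoly.ne_zero (Matrix.isIntegral T)
  obtain ⟨q, hpq, hqX⟩ := (minpoly ℂ T).exists_eq_pow_rootMultiplicity_mul_and_not_dvd hp0 lam
  set m := (minpoly ℂ T).rootMultiplicity lam
  have hann : aeval T (minpoly ℂ T) = 0 := minpoly.aeval ℂ T
  have hcomm : ∀ (f : ℂ[X]) (Y : Matrix (Fin r) (Fin r) ℂ), T * Y = Y * T →
      aeval T f * Y = Y * aeval T f := by
    intro f Y hY
    induction f using Polynomial.induction_on' with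
    | add f g hf hg => simp [add_mul, mul_add, hf, hg]
    | monomial n c =>
      rw [aeval_monomial, mul_assoc, ((show Commute T Y from hY).pow_left n).eq,
        Algebra.left_comm]
  have hdvd : ∀ f : ℂ[X], aeval T f = 0 → minpoly ℂ T ∣ f := fun f hf => minpoly.dvd ℂ T hf
  have hq0 : q ≠ 0 := fun h => hp0 (by rw [hpq, h, mul_zero])
  by_cases hdeg : q.natDegree = 0
  · -- nilpotent case
    obtain ⟨c, rfl⟩ := Polynomial.natDegree_eq_zero.1 hdeg
    have hc : c ≠ 0 := fun h => hq0 (by rw [h, map_zero])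
    have hm2 : 2 ≤ m := by
      by_contra hm
      have h1 : aeval T (X - C lam) = 0 := by
        rcases Nat.lt_or_ge m 1 with h | h
        · rw [show m = 0 by omega, pow_zero, one_mul] at hpq
          rw [hpq, aeval_C] at hann
          exact absurd ((map_eq_zero_iff _ (algebraMap ℂ (Matrix (Fin r) (Fin r) ℂ)).injective).1
            hann) hc
        · rw [show m = 1 by omega, pow_one] at hpq
          rw [hpq, map_mul, aeval_C] at hann
          rwa [← Algebra.commutes, ← Algebra.smul_def, smul_eq_zero, or_iff_right hc] at hann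
      rw [map_sub, aeval_X, aeval_C, sub_eq_zero, Algebra.algebraMap_eq_smul_one] at h1
      exact hT lam h1
    refine ⟨aeval T ((X - C lam) ^ (m - 1)), fun a ha => ?_, hcomm _ _ hA, hcomm _ _ hB, ?_⟩
    swap
    · intro z hz
      obtain ⟨v, hv0, hv⟩ := exists_eigenvector hz
      have h0 : aeval T ((X - C lam) ^ (m - 1)) * aeval T ((X - C lam) ^ (m - 1)) = 0 := by
        rw [← map_mul, ← pow_add]
        obtain ⟨i, hi⟩ : ∃ i, m - 1 + (m - 1) = m + i := ⟨m - 2, by omega⟩
        have hsplit : ((X - C lam) ^ (m + i) : ℂ[X]) = minpoly ℂ T * (C c⁻¹ * (X - C lam) ^ i) := by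
          rw [hpq, pow_add]
          have : (C c * C c⁻¹ : ℂ[X]) = 1 := by rw [← map_mul, mul_inv_cancel₀ hc, map_one]
          linear_combination -((X - C lam) ^ m * (X - C lam) ^ i) * this
        rw [hi, hsplit, map_mul, hann, zero_mul]
      have h1 := congrArg (· *ᵥ v) h0
      simp only [← Matrix.mulVec_mulVec, hv, Matrix.mulVec_smul, Matrix.zero_mulVec,
        smul_smul] at h1
      rcases smul_eq_zero.1 h1 with h | h
      · exact Or.inl (mul_self_eq_zero.1 h)
      · exact absurd h hv0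
    · -- not a scalar
      have h0 : aeval T (((X - C lam) ^ (m - 1) - C a) : ℂ[X]) = 0 := by
        rw [map_sub, aeval_C, ha, Algebra.algebraMap_eq_smul_one, sub_self]
      have h1 := Polynomial.natDegree_le_of_dvd (hdvd _ h0) (fun h => by
        have := congrArg Polynomial.natDegree (sub_eq_zero.1 h)
        rw [natDegree_pow, natDegree_X_sub_C, natDegree_C] at this
        omega)
      rw [hpq, natDegree_mul_C hc, natDegree_pow, natDegree_X_sub_C, natDegree_sub_C, natDegree_pow,
        natDegree_X_sub_C] at h1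
      omega
  · -- idempotent case
    have hcop : IsCoprime ((X - C lam) ^ m) q :=
      ((irreducible_X_sub_C lam).coprime_iff_not_dvd.2 hqX).pow_left
    obtain ⟨a, b, hab⟩ := hcop
    have hm1 : 1 ≤ m := by
      refine (Polynomial.rootMultiplicity_pos hp0).2 ?_
      have : Module.End.HasEigenvalue (Matrix.toLin' T) lam := by
        rw [Module.End.hasEigenvalue_iff_isRoot_charpoly, Matrix.charpoly_toLin']
        exact hlam
      have h := Module.End.isRoot_of_hasEigenvalue this
      rwa [Matrix.minpoly_toLin'] at h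
    have hidem : aeval T (b * q) * aeval T (b * q) = aeval T (b * q) := by
      have e : (b * q * (b * q) : ℂ[X]) = b * q - minpoly ℂ T * (b * a) := by
        rw [hpq]
        linear_combination (b * q) * hab
      rw [← map_mul, e, map_sub, map_mul _ (minpoly ℂ T), hann, zero_mul, sub_zero]
    refine ⟨aeval T (b * q), fun c hc => ?_, hcomm _ _ hA, hcomm _ _ hB, ?_⟩
    swap
    · intro z hz
      obtain ⟨v, hv0, hv⟩ := exists_eigenvector hz
      have h1 := congrArg (· *ᵥ v) hidem
      simp only [← Matrix.mulVec_mulVec, hv, Matrix.mulVec_smul, smul_smul] at h1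
      have : z * (z - 1) = 0 := by
        have h2 : (z * z - z) • v = 0 := by rw [sub_smul, h1, sub_self]
        linear_combination (smul_eq_zero.1 h2).resolve_right hv0
      rcases mul_eq_zero.1 this with h | h
      · exact Or.inl h
      · exact Or.inr (sub_eq_zero.1 h)
    · have hc2 : c = 0 ∨ c = 1 := by
        rw [hc, smul_mul_assoc, one_mul, smul_smul] at hidem
        have h0 : ((c * c - c) : ℂ) • (1 : Matrix (Fin r) (Fin r) ℂ) = 0 := by
          rw [sub_smul, hidem, sub_self]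
        have := (smul_eq_zero.1 h0).resolve_right one_ne_zero
        rcases mul_eq_zero.1 (show c * (c - 1) = 0 by linear_combination this) with h | h
        · exact Or.inl h
        · exact Or.inr (sub_eq_zero.1 h)
      rcases hc2 with rfl | rfl
      · -- the idempotent is not zero
        rw [zero_smul] at hc
        have h1 : minpoly ℂ T ∣ b * q := hdvd _ hc
        have h2 : (X - C lam) ∣ b * q :=
          (dvd_trans (dvd_pow_self _ (by omega : m ≠ 0)) (hpq ▸ dvd_mul_right _ q)).trans h1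
        have h3 : (X - C lam) ∣ (1 : ℂ[X]) := hab ▸ dvd_add
          (Dvd.dvd.mul_left (dvd_pow_self _ (by omega : m ≠ 0)) a) h2
        exact (irreducible_X_sub_C lam).not_isUnit (isUnit_of_dvd_one h3)
      · -- nor the identity
        have h0 : aeval T (a * (X - C lam) ^ m) = 0 := by
          have : (a * (X - C lam) ^ m : ℂ[X]) = 1 - b * q := by linear_combination hab
          rw [this, map_sub, map_one, hc, one_smul, sub_self]
        have h1 : q ∣ a * (X - C lam) ^ m :=
          (hpq ▸ dvd_mul_left q _ : q ∣ minpoly ℂ T).trans (hdvd _ h0)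
        have h2 : q ∣ (1 : ℂ[X]) := hab ▸ dvd_add h1 (dvd_mul_left q b)
        exact hdeg (Polynomial.natDegree_eq_zero_of_isUnit (isUnit_of_dvd_one h2))

/-- A pair with a nonscalar commutant needs at most `2r² - 2r` parameters. -/
theorem bad_pair_count {A B : Matrix (Fin r) (Fin r) ℂ} (hA : A.det = 1) (hB : B.det = 1)
    (h : ∃ T, NonScalar T ∧ T * A = A * T ∧ T * B = B * T) :
    ∃ t : Finset ℂ, t.card + 2 * r ≤ 2 * (r * r) ∧ InA (t : Set ℂ) A ∧ InA (t : Set ℂ) B := by
  classical
  obtain ⟨T, hT, hTA, hTB⟩ := h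
  obtain ⟨E, hE, hEA, hEB, hroot⟩ := exists_special hT hTA hTB
  have hr : 0 < r := by
    rcases Nat.eq_zero_or_pos r with rfl | h
    · exact absurd (by ext i; exact isEmptyElim i) (hE 0)
    · exact h
  obtain ⟨P, J, hP, hEP, hJ⟩ := exists_eigen_form E (aclField (∅ : Set ℂ)).toSubring fun z hz => by
    rcases hroot z hz with rfl | rfl
    · exact zero_mem _
    · exact one_mem _
  obtain ⟨t₁, ht₁, hE1⟩ := conj_param (S := ∅) (fun i j => mem_aclField.1 (hJ i j)) hP hEP
  rw [finrank_sol_similar hP hEP] at ht₁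
  obtain ⟨t₂, ht₂, hA2⟩ := sl_param hE1 hE1 hEA hA hr
  obtain ⟨t₃, ht₃, hB3⟩ := sl_param hE1 hE1 hEB hB hr
  refine ⟨t₁ ∪ t₂ ∪ t₃, ?_, hA2.mono ?_, hB3.mono ?_⟩
  · have h1 := Finset.card_union_le (t₁ ∪ t₂) t₃
    have h2 := Finset.card_union_le t₁ t₂
    have h3 := finrank_sol_nonscalar hE
    omega
  all_goals
    intro z hz
    refine subset_acl _ ?_
    simp only [Set.empty_union, Set.mem_union, Finset.mem_coe, Finset.mem_union] at hz ⊢
    tauto

/-- The fibre of the commutator needs at most `r² + r - 2` parameters. -/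
theorem fibre_count {S : Set ℂ} {A B c : Matrix (Fin r) (Fin r) ℂ} (hr : 0 < r) (hA : A.det = 1)
    (hB : B.det = 1) (hc : InA S c) (hAB : c * B * A = A * B) :
    ∃ t : Finset ℂ, t.card + 2 ≤ r * r + r ∧ InA (S ∪ t) A ∧ InA (S ∪ t) B := by
  classical
  have hroots : B.charpoly.roots.card = r := by
    rw [IsAlgClosed.card_roots_eq_natDegree, Matrix.charpoly_natDegree_eq_dim, Fintype.card_fin]
  have hprod : B.charpoly.roots.prod = 1 := by
    rw [← Matrix.det_eq_prod_roots_charpoly, hB]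
  obtain ⟨a, ha⟩ := Multiset.card_pos_iff_exists_mem.1 (show 0 < B.charpoly.roots.card by omega)
  obtain ⟨t₁, ht₁e⟩ : ∃ t₁, t₁ = (B.charpoly.roots.erase a).toFinset := ⟨_, rfl⟩
  have ht₁ : t₁.card + 1 ≤ r := by
    rw [ht₁e]
    have h1 := (B.charpoly.roots.erase a).toFinset_card_le
    rw [Multiset.card_erase_of_mem ha, hroots, Nat.pred_eq_sub_one] at h1
    omega
  have hrootA : ∀ z : ℂ, B.charpoly.IsRoot z → z ∈ (aclField (S ∪ t₁)).toSubring := by
    intro z hz
    have hzm : z ∈ B.charpoly.roots :=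
      (Polynomial.mem_roots (Matrix.charpoly_monic B).ne_zero).2 hz
    by_cases hza : z ∈ B.charpoly.roots.erase a
    · exact mem_aclField.2 (subset_acl _ (Or.inr (by rw [ht₁e]; simpa using hza)))
    · obtain rfl : z = a := by
        by_contra hne
        exact hza ((Multiset.mem_erase_of_ne hne).2 hzm)
      rw [← Multiset.prod_erase hzm] at hprod
      show z ∈ aclField (S ∪ t₁)
      rw [eq_inv_of_mul_eq_one_left hprod]
      refine inv_mem (Submonoid.multiset_prod_mem (aclField (S ∪ t₁)).toSubmonoid _ fun w hw => ?_)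
      exact mem_aclField.2 (subset_acl _ (Or.inr (by rw [ht₁e]; simpa using hw)))
  obtain ⟨P, J, hP, hBP, hJ⟩ := exists_eigen_form B (aclField (S ∪ t₁)).toSubring hrootA
  obtain ⟨t₂, ht₂, hB2⟩ := conj_param (S := S ∪ t₁) (fun i j => mem_aclField.1 (hJ i j)) hP hBP
  rw [finrank_sol_similar hP hBP] at ht₂
  have hc' : InA (S ∪ ↑t₁ ∪ ↑t₂) c := hc.mono fun z hz => subset_acl _ (Or.inl (Or.inl hz))
  obtain ⟨t₃, ht₃, hA3⟩ := sl_param (hc'.mul hB2) hB2 hAB hA hr
  have heq : finrank ℂ (sol (c * B) B) ≤ finrank ℂ (sol B B) := by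
    have hA0 : A.det ≠ 0 := by rw [hA]; exact one_ne_zero
    refine finrank_sol_conj (P := A⁻¹) (Q := 1) ?_ (by simp) ?_ (by simp)
    · rw [Matrix.det_nonsing_inv, Ring.inverse_eq_inv']
      exact inv_ne_zero hA0
    · rw [← Matrix.mul_nonsing_inv_cancel_right _ (A⁻¹ * (c * B)) (isUnit_iff_ne_zero.2 hA0),
        mul_assoc A⁻¹ (c * B) A, hAB, ← mul_assoc, Matrix.nonsing_inv_mul _
          (isUnit_iff_ne_zero.2 hA0), one_mul]
  refine ⟨t₁ ∪ t₂ ∪ t₃, ?_, hA3.mono ?_, hB2.mono ?_⟩
  · have h1 := Finset.card_union_le (t₁ ∪ t₂) t₃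
    have h2 := Finset.card_union_le t₁ t₂
    omega
  all_goals
    intro z hz
    refine subset_acl _ ?_
    simp only [Set.mem_union, Finset.mem_coe, Finset.mem_union] at hz ⊢
    tauto

end Vale.Agent.P002.Surface
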