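import Mathlib

/-!
# P002: algebraic closure inside `ℂ`, generic points, and their number of free coordinates
-/

namespace Vale.Agent.P002.Surface

open Cardinal MvPolynomial Set

/-- The numbers algebraic over the field generated by `S`. -/
noncomputable def acl (S : Set ℂ) : Set ℂ := (AlgebraicIndependent.matroid ℚ ℂ).closure S

theorem subset_acl (S : Set ℂ) : S ⊆ acl S := Matroid.subset_closure _ _ (subset_univ _)

theorem acl_subset_acl {S T : Set ℂ} (h : S ⊆ acl T) : acl S ⊆ acl T :=
  Matroid.closure_subset_closure_of_subset_closure h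

theorem acl_mono {S T : Set ℂ} (h : S ⊆ T) : acl S ⊆ acl T :=
  acl_subset_acl (h.trans (subset_acl T))

theorem mem_acl_iff {S : Set ℂ} {z : ℂ} :
    z ∈ acl S ↔ IsAlgebraic (Algebra.adjoin ℚ S) z := by
  rw [acl, AlgebraicIndependent.matroid_closure_eq]
  rfl

/-- `acl S` is the underlying set of a subfield. -/
noncomputable def aclField (S : Set ℂ) : Subfield ℂ where
  carrier := (Subalgebra.algebraicClosure (Algebra.adjoin ℚ S) ℂ : Set ℂ)
  mul_mem' := mul_mem
  one_mem' := one_mem _
  add_mem' := add_mem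
  zero_mem' := zero_mem _
  neg_mem' := neg_mem
  inv_mem' := fun _ hx => IsAlgebraic.inv hx

theorem coe_aclField (S : Set ℂ) : (aclField S : Set ℂ) = acl S :=
  (AlgebraicIndependent.matroid_closure_eq).symm

theorem mem_aclField {S : Set ℂ} {z : ℂ} : z ∈ aclField S ↔ z ∈ acl S :=
  Set.ext_iff.1 (coe_aclField S) z

/-- A root of a nonzero polynomial with coefficients in `acl S` lies in `acl S`. -/
theorem root_mem_acl {S : Set ℂ} {z : ℂ} {p : Polynomial ℂ} (hp : p ≠ 0)
    (hc : ∀ n, p.coeff n ∈ acl S) (hz : p.eval z = 0) : z ∈ acl S := by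
  obtain ⟨T, hT, hcl⟩ := (AlgebraicIndependent.matroid_isFlat_iff (R := ℚ)).1
    ((AlgebraicIndependent.matroid ℚ ℂ).isFlat_closure S)
  have hcT : ∀ n, p.coeff n ∈ T.toSubring := fun n => (Set.ext_iff.1 hT (p.coeff n)).2 (hc n)
  refine hcl z ?_
  obtain ⟨q, hq⟩ : ∃ q : Polynomial T, q.map T.val.toRingHom = p := by
    have hlift : p ∈ Polynomial.lifts T.val.toRingHom := (Polynomial.lifts_iff_coeff_lifts p).2
      fun n => ⟨⟨_, hcT n⟩, rfl⟩
    exact (Polynomial.mem_lifts p).1 hlift
  refine ⟨q, fun h => hp (by rw [← hq, h, Polynomial.map_zero]), ?_⟩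
  rw [← hq, Polynomial.eval_map] at hz
  exact hz

/-- An algebraically independent family inside `acl S` has at most `|S|` members. -/
theorem card_le_of_algebraicIndependent {ι : Type} [Fintype ι] {y : ι → ℂ}
    (hy : AlgebraicIndependent ℚ y) (s : Finset ℂ) (h : ∀ i, y i ∈ acl s) :
    Fintype.card ι ≤ s.card := by
  classical
  have hI : (AlgebraicIndependent.matroid ℚ ℂ).Indep (range y) :=
    AlgebraicIndependent.matroid_indep_iff.2 hy.to_subtype_range
  have h1 : (range y).encard ≤ (AlgebraicIndependent.matroid ℚ ℂ).eRk (s : Set ℂ) := by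
    rw [← Matroid.eRk_closure_eq, ← hI.eRk_eq_encard]
    exact Matroid.eRk_mono _ (range_subset_iff.2 h)
  have h2 := h1.trans (Matroid.eRk_le_encard _ _)
  rw [← image_univ, hy.injective.injOn.encard_image, encard_univ, ENat.card_eq_coe_fintype_card,
    encard_coe_eq_coe_finsetCard] at h2
  exact_mod_cast h2

/-- Specialisation of the first `j` variables at `x`, with coefficients in `ℂ`. -/
noncomputable def spec {N : ℕ} (x : Fin N → ℂ) (j : ℕ) :
    MvPolynomial (Fin N) ℚ →ₐ[ℚ] MvPolynomial (Fin N) ℂ :=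
  aeval fun i => if (i : ℕ) < j then C (x i) else X i

theorem spec_succ {N : ℕ} (x : Fin N → ℂ) (j : ℕ) :
    spec x (j + 1) = ((aeval fun i : Fin N => if (i : ℕ) = j then C (x i) else X i :
      MvPolynomial (Fin N) ℂ →ₐ[ℂ] MvPolynomial (Fin N) ℂ).restrictScalars ℚ).comp (spec x j) := by
  refine MvPolynomial.algHom_ext fun i => ?_
  simp only [spec, AlgHom.comp_apply, aeval_X, AlgHom.restrictScalars_apply]
  by_cases h1 : (i : ℕ) < j
  · rw [if_pos h1, if_pos (by omega), aeval_C]
    rfl
  · rw [if_neg h1, aeval_X]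
    by_cases h2 : (i : ℕ) = j
    · rw [if_pos h2, if_pos (by omega)]
    · rw [if_neg h2, if_neg (by omega)]

/-- The number of free coordinates of a generic point is at least `N` minus the height. -/
theorem le_card_add_height {N h : ℕ} (P : Ideal (MvPolynomial (Fin N) ℚ)) [P.IsPrime]
    (hP : P.height ≤ h) (x : Fin N → ℂ) (hx : RingHom.ker (aeval x : _ →ₐ[ℚ] ℂ) = P)
    (s : Finset ℂ) (hs : ∀ i, x i ∈ acl s) : N ≤ s.card + h := by
  classical
  set K : ℕ → Ideal (MvPolynomial (Fin N) ℚ) := fun j => RingHom.ker (spec x j) with hK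
  have hprime : ∀ j, (K j).IsPrime := fun j => RingHom.ker_isPrime _
  have hmono : ∀ j, K j ≤ K (j + 1) := fun j p hp => by
    simp only [hK, RingHom.mem_ker] at hp ⊢
    rw [spec_succ, AlgHom.comp_apply, hp, map_zero]
  have hKN : K N = P := by
    rw [← hx]
    have e : spec x N = ((Algebra.ofId ℂ (MvPolynomial (Fin N) ℂ)).restrictScalars ℚ).comp
        (aeval x) := by
      refine MvPolynomial.algHom_ext fun i => ?_
      simp [spec]
    ext p
    simp only [hK, RingHom.mem_ker]
    rw [e, AlgHom.comp_apply]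
    exact map_eq_zero_iff _ (MvPolynomial.C_injective (Fin N) ℂ)
  -- the coordinates algebraic over the earlier ones give strict steps
  let Alg : Fin N → Prop := fun i =>
    x i ∈ acl (x '' {k | (k : ℕ) < (i : ℕ)})
  have hstep : ∀ i : Fin N, Alg i → K i < K (i + 1) := by
    intro i hi
    refine lt_of_le_of_ne (hmono i) fun heq => ?_
    obtain ⟨q, hq0, hq⟩ := (mem_acl_iff.1 hi)
    have hS : Algebra.adjoin ℚ (x '' {k | (k : ℕ) < (i : ℕ)}) =
        (MvPolynomial.supported ℚ {k : Fin N | (k : ℕ) < (i : ℕ)}).map (aeval x) := by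
      rw [MvPolynomial.supported_eq_adjoin_X, AlgHom.map_adjoin]
      congr 1
      rw [← image_comp]
      exact image_congr fun k _ => by simp
    have hlift : ∀ a : Algebra.adjoin ℚ (x '' {k | (k : ℕ) < (i : ℕ)}),
        ∃ c : MvPolynomial (Fin N) ℚ, spec x i c = C (a : ℂ) ∧ aeval x c = (a : ℂ) := by
      intro a
      have ha := a.2
      simp only [hS] at ha
      obtain ⟨c, hc, hca⟩ := ha
      refine ⟨c, ?_, hca⟩
      rw [MvPolynomial.supported_eq_adjoin_X] at hc
      have hle : Algebra.adjoin ℚ (X '' {k : Fin N | (k : ℕ) < (i : ℕ)}) ≤ AlgHom.equalizer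
          (spec x i) (((Algebra.ofId ℂ (MvPolynomial (Fin N) ℂ)).restrictScalars ℚ).comp
            (aeval x)) := by
        rw [Algebra.adjoin_le_iff]
        rintro _ ⟨k, hk, rfl⟩
        have hk' : (k : ℕ) < (i : ℕ) := hk
        rw [SetLike.mem_coe, AlgHom.mem_equalizer]
        simp only [spec, aeval_X, AlgHom.comp_apply, if_pos hk']
        rfl
      have := hle hc
      rw [AlgHom.mem_equalizer] at this
      rw [this, ← hca]
      rfl
    choose c hc1 hc2 using fun n => hlift (q.coeff n)
    set p : MvPolynomial (Fin N) ℚ := ∑ n ∈ q.support, c n * X i ^ n with hp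
    have e1 : ∀ j, (i : ℕ) < j → j ≤ (i : ℕ) + 1 → spec x j (X i) = C (x i) := fun j h1 _ => by
      simp [spec, if_pos h1]
    have h1 : p ∈ K (i + 1) := by
      simp only [hK, RingHom.mem_ker, hp, map_sum, map_mul, map_pow, e1 _ (Nat.lt_succ_self _) le_rfl]
      have e2 : ∀ n, spec x (i + 1) (c n) = C ((q.coeff n : ℂ)) := fun n => by
        rw [spec_succ, AlgHom.comp_apply, hc1]
        simp
      simp only [e2, ← map_pow, ← map_mul, ← map_sum]
      rw [show (0 : MvPolynomial (Fin N) ℂ) = C 0 from (map_zero C).symm]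
      congr 1
      rw [← hq, Polynomial.aeval_def, Polynomial.eval₂_eq_sum, Polynomial.sum_def]
      rfl
    have h2 : p ∉ K i := by
      simp only [hK, RingHom.mem_ker, hp, map_sum, map_mul, map_pow, hc1]
      have e3 : spec x i (X i) = X i := by simp [spec]
      rw [e3]
      intro h0
      refine hq0 (Polynomial.ext fun n => ?_)
      by_cases hn : n ∈ q.support
      · have h3 := congrArg (MvPolynomial.coeff (Finsupp.single i n)) h0
        simp only [coeff_sum, coeff_zero, coeff_C_mul, coeff_X_pow] at h3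
        rw [Finset.sum_eq_single n (fun m _ hm => by
          simp [hm, (Finsupp.single_injective i).eq_iff]) (fun h => absurd hn h)] at h3
        simpa [Subalgebra.coe_eq_zero] using h3
      · simpa [Polynomial.mem_support_iff] using hn
    exact h2 (heq ▸ h1)
  -- the height is at least the number of strict steps
  have hht : ∀ j ≤ N, ((Finset.univ.filter fun i : Fin N => (i : ℕ) < j ∧ Alg i).card : ℕ∞) ≤
      (K j).height := by
    intro j
    induction j with
    | zero => intro _; simp
    | succ j ih =>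
      intro hj
      have ih' := ih (by omega)
      have hsplit : (Finset.univ.filter fun i : Fin N => (i : ℕ) < j + 1 ∧ Alg i) ⊆
          insert ⟨j, by omega⟩ (Finset.univ.filter fun i : Fin N => (i : ℕ) < j ∧ Alg i) := by
        intro i hi
        simp only [Finset.mem_filter, Finset.mem_univ, true_and, Finset.mem_insert] at hi ⊢
        rcases Nat.lt_succ_iff_lt_or_eq.1 hi.1 with h | h
        · exact Or.inr ⟨h, hi.2⟩
        · exact Or.inl (Fin.ext h)
      by_cases hA : Alg ⟨j, by omega⟩
      · have := hprime j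
        have := hprime (j + 1)
        refine le_trans ?_ (Ideal.height_add_one_le_of_lt_of_isPrime (hstep ⟨j, by omega⟩ hA))
        refine le_trans ?_ (add_le_add_left ih' 1)
        exact_mod_cast (Finset.card_le_card hsplit).trans (Finset.card_insert_le _ _)
      · refine le_trans ?_ (ih'.trans (Ideal.height_mono (hmono j)))
        refine Nat.cast_le.2 (Finset.card_le_card fun i hi => ?_)
        simp only [Finset.mem_filter, Finset.mem_univ, true_and] at hi ⊢
        refine ⟨?_, hi.2⟩
        rcases Nat.lt_succ_iff_lt_or_eq.1 hi.1 with h | h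
        · exact h
        · exact absurd hi.2 (by rwa [show i = ⟨j, by omega⟩ from Fin.ext h])
  have h1 : (Finset.univ.filter fun i : Fin N => Alg i).card ≤ h := by
    have := (hht N le_rfl).trans (hKN ▸ hP)
    simpa using this
  -- the other coordinates are algebraically independent
  have hind : ∀ j ≤ N, (AlgebraicIndependent.matroid ℚ ℂ).Indep
      (x '' {i | (i : ℕ) < j ∧ ¬ Alg i}) := by
    intro j
    induction j with
    | zero => intro _; simp
    | succ j ih =>
      intro hj
      by_cases hA : Alg ⟨j, by omega⟩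
      · refine (ih (by omega)).subset (image_mono fun i hi => ⟨?_, hi.2⟩)
        rcases Nat.lt_succ_iff_lt_or_eq.1 hi.1 with h | h
        · exact h
        · exact absurd (Fin.ext (b := ⟨j, by omega⟩) h ▸ hA) hi.2
      · have e : x '' {i : Fin N | (i : ℕ) < j + 1 ∧ ¬ Alg i} ⊆
            insert (x ⟨j, by omega⟩) (x '' {i : Fin N | (i : ℕ) < j ∧ ¬ Alg i}) := by
          rintro _ ⟨i, hi, rfl⟩
          rcases Nat.lt_succ_iff_lt_or_eq.1 hi.1 with h | h
          · exact Or.inr ⟨i, ⟨h, hi.2⟩, rfl⟩
          · exact Or.inl (congrArg x (Fin.ext h))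
        refine Matroid.Indep.subset ?_ e
        have hnot : x ⟨j, by omega⟩ ∉
            (AlgebraicIndependent.matroid ℚ ℂ).closure (x '' {i | (i : ℕ) < j ∧ ¬ Alg i}) :=
          fun hmem => hA (acl_mono (image_mono fun i hi => hi.1) hmem)
        exact ((ih (by omega)).notMem_closure_iff_of_notMem
          (fun hmem => hnot (subset_acl _ hmem))).1 hnot
  have hI := hind N le_rfl
  have hinj : InjOn x {i | ¬ Alg i} := by
    intro a ha b hb hab
    rcases lt_trichotomy (a : ℕ) (b : ℕ) with h | h | h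
    · exact absurd (subset_acl _ (show x b ∈ x '' {k | (k : ℕ) < (b : ℕ)} from ⟨a, h, hab⟩)) hb
    · exact Fin.ext h
    · exact absurd (subset_acl _ (show x a ∈ x '' {k | (k : ℕ) < (a : ℕ)} from ⟨b, h, hab.symm⟩)) ha
  have h2 : (Finset.univ.filter fun i : Fin N => ¬ Alg i).card ≤ s.card := by
    rw [← Fintype.card_subtype]
    refine card_le_of_algebraicIndependent (y := fun i : {i // ¬ Alg i} => x i) ?_ s fun i => hs i
    have hsub : AlgebraicIndepOn ℚ id (x '' {i | ¬ Alg i}) := by
      have : {i : Fin N | (i : ℕ) < N ∧ ¬ Alg i} = {i | ¬ Alg i} := by ext i; simp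
      rw [this] at hI
      exact AlgebraicIndependent.matroid_indep_iff.1 hI
    exact (AlgebraicIndependent.of_subtype_range (fun a b hab => Subtype.ext (hinj a.2 b.2 hab))
      (by
        have : range (fun i : {i // ¬ Alg i} => x i) = x '' {i | ¬ Alg i} := by
          ext z; simp
        rw [this]
        exact hsub))
  have h3 := Finset.card_filter_add_card_filter_not (s := (Finset.univ : Finset (Fin N))) Alg
  rw [Finset.card_univ, Fintype.card_fin] at h3
  calc N = _ + _ := h3.symm
    _ ≤ h + s.card := add_le_add (le_of_eq_of_le (by congr 1) h1) (le_of_eq_of_le (by congr 1) h2)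
    _ = _ := add_comm _ _

/-- Every prime ideal of polynomials over `ℚ` has a generic point in `ℂ`. -/
theorem exists_generic {N : ℕ} (P : Ideal (MvPolynomial (Fin N) ℚ)) [P.IsPrime] :
    ∃ x : Fin N → ℂ, RingHom.ker (aeval x : _ →ₐ[ℚ] ℂ) = P := by
  classical
  let A := MvPolynomial (Fin N) ℚ ⧸ P
  have hinjA : Function.Injective (algebraMap ℚ A) := (algebraMap ℚ A).injective
  have : FaithfulSMul ℚ A := (faithfulSMul_iff_algebraMap_injective ℚ A).2 hinjA
  obtain ⟨t, ht⟩ := exists_isTranscendenceBasis ℚ A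
  obtain ⟨T, hT⟩ := exists_isTranscendenceBasis ℚ ℂ
  have hcount : #A ≤ ℵ₀ := by
    refine le_trans (mk_le_of_surjective Ideal.Quotient.mk_surjective) ?_
    exact MvPolynomial.cardinalMk_le_max.trans (by simp)
  have hTc : #T = #ℂ :=
    (IsAlgClosed.cardinal_eq_cardinal_transcendence_basis_of_aleph0_lt' _ hT
      (le_of_eq mkRat) (by rw [mk_complex]; exact aleph0_lt_continuum)).symm
  have hle : #t ≤ #T := by
    rw [hTc, mk_complex]
    exact ((mk_set_le t).trans hcount).trans aleph0_le_continuum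
  obtain ⟨e⟩ := (Cardinal.le_def t T).1 hle
  have hv : AlgebraicIndependent ℚ ((↑) ∘ e : t → ℂ) := hT.1.comp _ e.injective
  let φ : Algebra.adjoin ℚ (range ((↑) : t → A)) →ₐ[ℚ] ℂ :=
    (aeval ((↑) ∘ e : t → ℂ)).comp ht.1.aevalEquiv.symm.toAlgHom
  have hφ : Function.Injective φ :=
    ((algebraicIndependent_iff_injective_aeval.1 hv).comp ht.1.aevalEquiv.symm.injective :
      Function.Injective ((aeval ((↑) ∘ e : t → ℂ)) ∘ ht.1.aevalEquiv.symm))
  let R₀ := Algebra.adjoin ℚ (range ((↑) : t → A))
  let : Algebra R₀ ℂ := φ.toRingHom.toAlgebra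
  have : FaithfulSMul R₀ ℂ := (faithfulSMul_iff_algebraMap_injective R₀ ℂ).2 hφ
  have : Algebra.IsAlgebraic R₀ A := ht.isAlgebraic
  have : IsScalarTower ℚ R₀ ℂ := IsScalarTower.of_algebraMap_eq fun q => (φ.commutes q).symm
  have : Module.IsTorsionFree R₀ ℂ := Module.isTorsionFree_iff_algebraMap_injective.mpr hφ
  let ψ : A →ₐ[R₀] ℂ := IsAlgClosed.lift
  have hψ : Function.Injective ψ := by
    refine (injective_iff_map_eq_zero ψ).2 fun a ha => ?_
    by_contra ha0
    have halg : IsAlgebraic R₀ a := Algebra.IsAlgebraic.isAlgebraic a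
    obtain ⟨r, hr, hdvd⟩ := halg.exists_nonzero_dvd (mem_nonZeroDivisors_of_ne_zero ha0)
    obtain ⟨b, hb⟩ := hdvd
    refine hr (hφ ?_)
    rw [map_zero]
    have := congrArg ψ hb
    rwa [ψ.commutes, map_mul, ha, zero_mul] at this
  refine ⟨fun i => ψ (Ideal.Quotient.mk P (X i)), ?_⟩
  have e2 : (aeval fun i => ψ (Ideal.Quotient.mk P (X i)) : _ →ₐ[ℚ] ℂ) =
      (ψ.restrictScalars ℚ).comp (Ideal.Quotient.mkₐ ℚ P) := by
    refine MvPolynomial.algHom_ext fun i => ?_
    rw [aeval_X]
    rfl
  ext p
  rw [RingHom.mem_ker, e2, AlgHom.comp_apply, AlgHom.restrictScalars_apply,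
    map_eq_zero_iff ψ hψ, Ideal.Quotient.mkₐ_eq_mk, Ideal.Quotient.eq_zero_iff_mem]

end Vale.Agent.P002.Surface
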