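import Vale.Agent.P002.Surface.Height

/-!
# P002: matrices with entries algebraic over a set of parameters
-/

namespace Vale.Agent.P002.Surface

open Matrix Module

variable {r : ℕ}

/-- All entries are algebraic over the field generated by `S`. -/
def InA (S : Set ℂ) (M : Matrix (Fin r) (Fin r) ℂ) : Prop := ∀ i j, M i j ∈ acl S

theorem InA.mono {S T : Set ℂ} (h : S ⊆ acl T) {M : Matrix (Fin r) (Fin r) ℂ} (hM : InA S M) :
    InA T M := fun i j => acl_subset_acl h (hM i j)

theorem exists_lift {S : Set ℂ} {M : Matrix (Fin r) (Fin r) ℂ} (hM : InA S M) :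
    ∃ M₀ : Matrix (Fin r) (Fin r) (aclField S), M₀.map (aclField S).subtype = M :=
  ⟨fun i j => ⟨M i j, mem_aclField.2 (hM i j)⟩, rfl⟩

theorem inA_map {S : Set ℂ} (M₀ : Matrix (Fin r) (Fin r) (aclField S)) :
    InA S (M₀.map (aclField S).subtype) := fun i j => mem_aclField.1 (M₀ i j).2

theorem InA.mul {S : Set ℂ} {M N : Matrix (Fin r) (Fin r) ℂ} (hM : InA S M) (hN : InA S N) :
    InA S (M * N) := by
  obtain ⟨M₀, rfl⟩ := exists_lift hM
  obtain ⟨N₀, rfl⟩ := exists_lift hN
  rw [← Matrix.map_mul]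
  exact inA_map _

theorem InA.adjugate {S : Set ℂ} {M : Matrix (Fin r) (Fin r) ℂ} (hM : InA S M) :
    InA S M.adjugate := by
  obtain ⟨M₀, rfl⟩ := exists_lift hM
  have := RingHom.map_adjugate (aclField S).subtype M₀
  simp only [RingHom.mapMatrix_apply] at this
  rw [← this]
  exact inA_map _

theorem InA.inv {S : Set ℂ} {M : Matrix (Fin r) (Fin r) ℂ} (hM : InA S M) : InA S M⁻¹ := by
  intro i j
  rw [Matrix.inv_def, Matrix.smul_apply, smul_eq_mul, Ring.inverse_eq_inv', ← mem_aclField]
  obtain ⟨M₀, rfl⟩ := exists_lift hM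
  refine mul_mem (inv_mem ?_) (mem_aclField.2 (hM.adjugate i j))
  have := RingHom.map_det (aclField S).subtype M₀
  simp only [RingHom.mapMatrix_apply] at this
  rw [← this]
  exact (M₀.det).2

theorem InA.one (S : Set ℂ) : InA S (1 : Matrix (Fin r) (Fin r) ℂ) := by
  have h : InA S ((1 : Matrix (Fin r) (Fin r) (aclField S)).map (aclField S).subtype) := inA_map _
  rwa [Matrix.map_one _ (map_zero _) (map_one _)] at h

theorem InA.list_prod {S : Set ℂ} {l : List (Matrix (Fin r) (Fin r) ℂ)} (h : ∀ M ∈ l, InA S M) :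
    InA S l.prod :=
  List.prod_induction _ (fun _ _ => InA.mul) (InA.one S) h

/-- The unique solution of a linear system lies in the field of its coefficients. -/
theorem unique_solution_mem {m p : Type} [Fintype m] [Fintype p] (K : Subfield ℂ)
    (M : Matrix p m ℂ) (hM : ∀ i j, M i j ∈ K) (hinj : ∀ v, M *ᵥ v = 0 → v = 0)
    (x : m → ℂ) (hb : ∀ i, (M *ᵥ x) i ∈ K) : ∀ j, x j ∈ K := by
  classical
  let M₀ : Matrix p m K := fun i j => ⟨M i j, hM i j⟩
  have hg : LinearMap.ker (Matrix.mulVecLin M₀) = ⊥ := by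
    rw [LinearMap.ker_eq_bot']
    intro v hv
    have h0 : M *ᵥ (fun j => (v j : ℂ)) = 0 := by
      funext i
      have := congrArg (fun w : p → K => ((w i : K) : ℂ)) hv
      simp only [Matrix.mulVecLin_apply, Matrix.mulVec, dotProduct] at this ⊢
      push_cast at this
      simpa [M₀] using this
    funext j
    exact Subtype.ext (congrFun (hinj _ h0) j)
  obtain ⟨L, hL⟩ := (Matrix.mulVecLin M₀).exists_leftInverse_of_injective hg
  have hL' : LinearMap.toMatrix' L * M₀ = 1 := by
    have h2 := congrArg LinearMap.toMatrix' hL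
    rw [LinearMap.toMatrix'_comp, LinearMap.toMatrix'_id, ← Matrix.toLin'_apply',
      LinearMap.toMatrix'_toLin'] at h2
    exact h2
  intro j
  have hLc : (LinearMap.toMatrix' L).map K.subtype * M = 1 := by
    have := congrArg (fun N : Matrix m m K => N.map K.subtype) hL'
    simp only [Matrix.map_mul, Matrix.map_one _ (map_zero _) (map_one _)] at this
    exact this
  rw [show x = (LinearMap.toMatrix' L).map K.subtype *ᵥ (M *ᵥ x) by
    rw [Matrix.mulVec_mulVec, hLc, Matrix.one_mulVec]]
  refine sum_mem fun i _ => mul_mem ?_ (hb i)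
  exact ((LinearMap.toMatrix' L) j i).2

/-- Solutions of `B₁ X = X B₂`. -/
noncomputable def sol (B₁ B₂ : Matrix (Fin r) (Fin r) ℂ) :
    Submodule ℂ (Matrix (Fin r) (Fin r) ℂ) :=
  LinearMap.ker (LinearMap.mulLeft ℂ B₁ - LinearMap.mulRight ℂ B₂)

theorem mem_sol {B₁ B₂ X : Matrix (Fin r) (Fin r) ℂ} : X ∈ sol B₁ B₂ ↔ B₁ * X = X * B₂ := by
  simp [sol, sub_eq_zero]

/-- Some coordinates are free coordinates on a subspace of matrices. -/
theorem exists_coords (W : Submodule ℂ (Matrix (Fin r) (Fin r) ℂ)) :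
    ∃ c : Finset (Fin r × Fin r), c.card = finrank ℂ W ∧ Function.Bijective
      fun (X : W) (k : c) => (X : Matrix (Fin r) (Fin r) ℂ) k.1.1 k.1.2 := by
  classical
  let φ : Fin r × Fin r → Module.Dual ℂ W := fun v =>
    ((LinearMap.proj v.2).comp (LinearMap.proj v.1 : Matrix (Fin r) (Fin r) ℂ →ₗ[ℂ] Fin r → ℂ)).comp
      W.subtype
  have hspan : Submodule.span ℂ (Set.range φ) = ⊤ := by
    rw [← Subspace.dualCoannihilator_dualAnnihilator_eq (W := Submodule.span ℂ (Set.range φ)),
      show (Submodule.span ℂ (Set.range φ)).dualCoannihilator = ⊥ by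
        refine (Submodule.eq_bot_iff _).2 fun X hX => Subtype.ext ?_
        ext i j
        exact (Submodule.mem_dualCoannihilator _).1 hX (φ (i, j)) (Submodule.subset_span ⟨_, rfl⟩),
      Submodule.dualAnnihilator_bot]
  obtain ⟨κ, a, ha, hsp, hli⟩ := exists_linearIndependent' ℂ φ
  have := Fintype.ofInjective a ha
  let c : Finset (Fin r × Fin r) := Finset.univ.image a
  have hbasis := Basis.mk hli (by rw [hsp, hspan])
  have hc : c.card = finrank ℂ W := by
    rw [Finset.card_image_of_injective _ ha, Finset.card_univ, ← Subspace.dual_finrank_eq,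
      Module.finrank_eq_card_basis hbasis]
  let f : W →ₗ[ℂ] (c → ℂ) := LinearMap.pi fun k => φ k.1
  have hinj : Function.Injective f := by
    rw [← LinearMap.ker_eq_bot, LinearMap.ker_eq_bot']
    intro X hX
    have hker : Submodule.span ℂ (Set.range (φ ∘ a)) ≤
        LinearMap.ker (Module.Dual.eval ℂ W X) := Submodule.span_le.2 (by
      rintro _ ⟨k, rfl⟩
      exact congrFun hX ⟨a k, Finset.mem_image_of_mem _ (Finset.mem_univ _)⟩)
    rw [hsp, hspan] at hker
    exact Subtype.ext (by ext i j; exact hker (Submodule.mem_top (x := φ (i, j))))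
  refine ⟨c, hc, hinj, ?_⟩
  exact (LinearMap.injective_iff_surjective_of_finrank_eq_finrank
    (by rw [Module.finrank_fintype_fun_eq_card, Fintype.card_coe, hc])).1 hinj

/-- The dual basis of a coordinate set on `sol B₁ B₂` has entries in the field of `B₁, B₂`. -/
theorem sol_param {S : Set ℂ} {B₁ B₂ : Matrix (Fin r) (Fin r) ℂ} (h₁ : InA S B₁) (h₂ : InA S B₂)
    (c : Finset (Fin r × Fin r))
    (hc : Function.Bijective
      fun (X : sol B₁ B₂) (k : c) => (X : Matrix (Fin r) (Fin r) ℂ) k.1.1 k.1.2) :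
    ∃ M : c → Matrix (Fin r) (Fin r) ℂ, (∀ k, InA S (M k)) ∧
      ∀ X ∈ sol B₁ B₂, X = ∑ k : c, X k.1.1 k.1.2 • M k := by
  classical
  choose M hM using fun k : c => hc.2 (Pi.single k 1)
  refine ⟨fun k => (M k : Matrix (Fin r) (Fin r) ℂ), fun k i j => ?_, fun X hX => ?_⟩
  · let Mat : Matrix ((Fin r × Fin r) ⊕ c) (Fin r × Fin r) ℂ := fun e v =>
      Sum.elim (fun e => (if e.2 = v.2 then B₁ e.1 v.1 else 0) - (if e.1 = v.1 then B₂ v.2 e.2 else 0))
        (fun k' => if k'.1 = v then 1 else 0) e
    have happ : ∀ (v : Fin r × Fin r → ℂ) e, (Mat *ᵥ v) e = Sum.elim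
        (fun e => (B₁ * Matrix.of (fun a b => v (a, b)) - Matrix.of (fun a b => v (a, b)) * B₂) e.1 e.2)
        (fun k' => v k'.1) e := by
      intro v e
      rcases e with e | k'
      · simp only [Matrix.mulVec, dotProduct, Mat, Sum.elim_inl, sub_mul, ite_mul, zero_mul,
          Finset.sum_sub_distrib, Matrix.sub_apply, Matrix.mul_apply, Matrix.of_apply,
          Fintype.sum_prod_type, Finset.sum_ite_eq, Finset.mem_univ, if_true]
        congr 1
        rw [Finset.sum_comm]
        simp [mul_comm]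
      · simp [Matrix.mulVec, dotProduct, Mat]
    refine mem_aclField.1 (unique_solution_mem (aclField S) Mat ?_ ?_
      (fun v => (M k : Matrix (Fin r) (Fin r) ℂ) v.1 v.2) ?_ (i, j))
    · rintro (e | k') v <;> simp only [Mat, Sum.elim_inl, Sum.elim_inr]
      · refine sub_mem ?_ ?_ <;> split_ifs
        exacts [mem_aclField.2 (h₁ _ _), zero_mem _, mem_aclField.2 (h₂ _ _), zero_mem _]
      · split_ifs
        exacts [one_mem _, zero_mem _]
    · intro v hv
      have hv' : Matrix.of (fun a b => v (a, b)) ∈ sol B₁ B₂ := by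
        rw [mem_sol, ← sub_eq_zero]
        ext a b
        have := congrFun hv (Sum.inl (a, b))
        rw [happ] at this
        exact this
      have h0 : (⟨_, hv'⟩ : sol B₁ B₂) = 0 := hc.1 (funext fun k' => by
        have := congrFun hv (Sum.inr k')
        rw [happ] at this
        exact this)
      funext w
      exact congrFun (congrFun (congrArg Subtype.val h0) w.1) w.2
    · intro e
      rw [happ]
      rcases e with e | k'
      · have : B₁ * (M k : Matrix (Fin r) (Fin r) ℂ) - (M k : Matrix (Fin r) (Fin r) ℂ) * B₂ = 0 :=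
          sub_eq_zero.2 (mem_sol.1 (M k).2)
        have hof : Matrix.of (fun a b => (M k : Matrix (Fin r) (Fin r) ℂ) a b) = M k := rfl
        simp only [Sum.elim_inl, hof, this]
        exact zero_mem _
      · have := congrFun (hM k) k'
        simp only at this
        simp only [Sum.elim_inr, this, Pi.single_apply]
        split_ifs
        exacts [one_mem _, zero_mem _]
  · have h0 : (⟨X, hX⟩ : sol B₁ B₂) = ∑ k : c, X k.1.1 k.1.2 • M k := hc.1 (funext fun k' => by
      simp only [AddSubmonoidClass.coe_finsetSum, SetLike.val_smul, Matrix.sum_apply,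
        Matrix.smul_apply, smul_eq_mul]
      rw [Finset.sum_eq_single k' (fun k _ hk => ?_) (by simp)]
      · have := congrFun (hM k') k'
        simp only at this
        rw [this, Pi.single_eq_same, mul_one]
      · have := congrFun (hM k) k'
        simp only at this
        rw [this, Pi.single_eq_of_ne (Ne.symm hk), mul_zero])
    simpa using congrArg Subtype.val h0

/-- An algebraic relation with coefficients in `acl S` makes one value algebraic over the others. -/
theorem exists_mem_acl_of_relation : ∀ {k : ℕ} (S : Set ℂ) (q : MvPolynomial (Fin k) ℂ)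
    (a : Fin k → ℂ), q ≠ 0 → (∀ m, q.coeff m ∈ acl S) → MvPolynomial.eval a q = 0 →
    ∃ i, a i ∈ acl (S ∪ a '' {j | j ≠ i}) := by
  intro k
  induction k with
  | zero =>
    intro S q a hq _ h
    exfalso
    rw [MvPolynomial.eq_C_of_isEmpty q, MvPolynomial.eval_C] at h
    exact hq (by rw [MvPolynomial.eq_C_of_isEmpty q, h, map_zero])
  | succ k ih =>
    intro S q a hq hco h
    set Q := MvPolynomial.finSuccEquiv ℂ k q with hQ
    have hQco : ∀ n m, (Q.coeff n).coeff m ∈ acl S := fun n m => by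
      rw [hQ, MvPolynomial.finSuccEquiv_coeff_coeff]
      exact hco _
    by_cases hz : Q.map (MvPolynomial.eval fun i => a i.succ) = 0
    · obtain ⟨n, hn⟩ : ∃ n, Q.coeff n ≠ 0 := by
        by_contra hall
        push Not at hall
        exact hq ((MvPolynomial.finSuccEquiv ℂ k).injective (by
          rw [map_zero]; exact Polynomial.ext fun n => by simpa using hall n))
      obtain ⟨i, hi⟩ := ih S (Q.coeff n) (fun i => a i.succ) hn (hQco n) (by
        have := congrArg (fun p => Polynomial.coeff p n) hz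
        simpa [Polynomial.coeff_map] using this)
      refine ⟨i.succ, acl_mono (Set.union_subset_union_right S ?_) hi⟩
      rintro _ ⟨j, hj, rfl⟩
      exact ⟨j.succ, fun e => hj (Fin.succ_inj.1 e), rfl⟩
    · refine ⟨0, root_mem_acl hz (fun n => ?_) ?_⟩
      · rw [Polynomial.coeff_map, ← mem_aclField, MvPolynomial.eval_eq]
        refine sum_mem fun m _ => mul_mem (mem_aclField.2 (acl_mono Set.subset_union_left (hQco n m)))
          (prod_mem fun i _ => pow_mem (mem_aclField.2 (subset_acl _ (Or.inr ⟨i.succ, ?_, rfl⟩))) _)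
        exact Fin.succ_ne_zero i
      · rw [← h]
        have := MvPolynomial.eval_eq_eval_mv_eval' (fun i => a i.succ) (a 0) q
        rw [show (Fin.cons (a 0) fun i => a i.succ : Fin (k + 1) → ℂ) = a from
          Fin.cons_self_tail a] at this
        rw [this]

/-- A conjugate of `J` and a conjugating matrix need `r² - dim (centraliser of J)` parameters. -/
theorem conj_param {S : Set ℂ} {J X P : Matrix (Fin r) (Fin r) ℂ} (hJ : InA S J) (hP : P.det ≠ 0)
    (hX : X * P = P * J) :
    ∃ t : Finset ℂ, t.card + finrank ℂ (sol J J) ≤ r * r ∧ InA (S ∪ t) X := by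
  classical
  have hu : IsUnit P.det := isUnit_iff_ne_zero.2 hP
  let e : sol J J ≃ₗ[ℂ] sol X J :=
    { toFun := fun Z => ⟨P * (Z : Matrix (Fin r) (Fin r) ℂ), mem_sol.2 (by
        rw [← mul_assoc, hX, mul_assoc, mem_sol.1 Z.2, mul_assoc])⟩
      map_add' := fun Z Z' => Subtype.ext (mul_add _ _ _)
      map_smul' := fun a Z => Subtype.ext (mul_smul_comm _ _ _)
      invFun := fun Y => ⟨P⁻¹ * (Y : Matrix (Fin r) (Fin r) ℂ), mem_sol.2 (by
        have : P⁻¹ * X = J * P⁻¹ := by
          rw [← Matrix.mul_nonsing_inv_cancel_right _ (P⁻¹ * X) hu, mul_assoc P⁻¹ X P, hX,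
            ← mul_assoc, Matrix.nonsing_inv_mul _ hu, one_mul]
        rw [← mul_assoc, ← this, mul_assoc, mem_sol.1 Y.2, mul_assoc])⟩
      left_inv := fun Z => Subtype.ext (Matrix.nonsing_inv_mul_cancel_left _ _ hu)
      right_inv := fun Y => Subtype.ext (Matrix.mul_nonsing_inv_cancel_left _ _ hu) }
  obtain ⟨c, hc, hbij⟩ := exists_coords (sol X J)
  let f : sol X J →ₗ[ℂ] (c → ℂ) := LinearMap.pi fun k =>
    ((LinearMap.proj k.1.2).comp
      (LinearMap.proj k.1.1 : Matrix (Fin r) (Fin r) ℂ →ₗ[ℂ] Fin r → ℂ)).comp (sol X J).subtype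
  let g := (LinearEquiv.ofBijective f hbij).symm
  let M : c → Matrix (Fin r) (Fin r) ℂ := fun k => (g (Pi.single k 1) : Matrix (Fin r) (Fin r) ℂ)
  have hg : ∀ u : c → ℂ, (g u : Matrix (Fin r) (Fin r) ℂ) = ∑ k : c, u k • M k := fun u => by
    conv_lhs => rw [pi_eq_sum_univ' u]
    simp [M, map_sum, map_smul]
  let q : MvPolynomial c ℂ :=
    (∑ k : c, (MvPolynomial.X k : MvPolynomial c ℂ) • (M k).map MvPolynomial.C).det
  have hq : ∀ u : c → ℂ, MvPolynomial.eval u q = (g u : Matrix (Fin r) (Fin r) ℂ).det := fun u => by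
    rw [RingHom.map_det, hg]
    congr 1
    ext i j
    simp [Matrix.sum_apply]
  have hPW : P ∈ sol X J := mem_sol.2 hX
  have hq0 : q ≠ 0 := fun h => hP (by
    have h1 := hq (f ⟨P, hPW⟩)
    rw [h, map_zero, show g (f ⟨P, hPW⟩) = ⟨P, hPW⟩ from
      (LinearEquiv.ofBijective f hbij).symm_apply_apply _] at h1
    exact h1.symm)
  obtain ⟨u, hu1, hu2⟩ : ∃ u : c → ℂ, (∀ k, u k ∈ Set.range (Rat.cast : ℚ → ℂ)) ∧
      MvPolynomial.eval u q ≠ 0 := by
    by_contra hall
    push Not at hall
    refine hq0 (MvPolynomial.funext_set (fun _ => Set.range (Rat.cast : ℚ → ℂ))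
      (fun _ => Set.infinite_range_of_injective Rat.cast_injective) fun x hx => ?_)
    rw [map_zero]
    exact hall x fun k => hx k (Set.mem_univ k)
  rw [hq] at hu2
  set P' : Matrix (Fin r) (Fin r) ℂ := (g u : Matrix (Fin r) (Fin r) ℂ) with hP'
  refine ⟨(cᶜ).image fun v => P' v.1 v.2, ?_, ?_⟩
  · refine le_trans (Nat.add_le_add_right Finset.card_image_le _) ?_
    rw [e.finrank_eq, ← hc, Finset.card_compl, Fintype.card_prod, Fintype.card_fin]
    have := Finset.card_le_univ c
    simp only [Fintype.card_prod, Fintype.card_fin] at this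
    omega
  · have hP'A : InA (S ∪ ↑((cᶜ).image fun v => P' v.1 v.2)) P' := by
      intro i j
      by_cases hv : (i, j) ∈ c
      · have h1 : f (g u) = u := (LinearEquiv.ofBijective f hbij).apply_symm_apply u
        obtain ⟨a, ha⟩ := hu1 ⟨(i, j), hv⟩
        have h2 : P' i j = (a : ℂ) := by
          rw [ha]
          exact congrFun h1 ⟨(i, j), hv⟩
        rw [h2, ← mem_aclField]
        exact SubfieldClass.ratCast_mem _ a
      · exact subset_acl _ (Or.inr (Finset.mem_coe.2 (Finset.mem_image.2
          ⟨(i, j), Finset.mem_compl.2 hv, rfl⟩)))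
    have hX' : X = P' * J * P'⁻¹ := by
      rw [← mem_sol.1 (g u).2, Matrix.mul_nonsing_inv_cancel_right _ _ (isUnit_iff_ne_zero.2 hu2)]
    rw [hX']
    exact (hP'A.mul (hJ.mono fun s hs => subset_acl _ (Or.inl hs))).mul hP'A.inv

/-- A matrix of determinant one in a linear family needs one parameter fewer than the dimension. -/
theorem sl_param {S : Set ℂ} {B₁ B₂ A : Matrix (Fin r) (Fin r) ℂ} (h₁ : InA S B₁) (h₂ : InA S B₂)
    (hA : B₁ * A = A * B₂) (hdet : A.det = 1) (hr : 0 < r) :
    ∃ t : Finset ℂ, t.card + 1 ≤ finrank ℂ (sol B₁ B₂) ∧ InA (S ∪ t) A := by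
  classical
  obtain ⟨c, hc, hbij⟩ := exists_coords (sol B₁ B₂)
  obtain ⟨M, hM, hsum⟩ := sol_param h₁ h₂ c hbij
  have hA' := hsum A (mem_sol.2 hA)
  set em := c.equivFin with hem
  let M₀ : c → Matrix (Fin r) (Fin r) (aclField S) := fun k i j => ⟨M k i j, mem_aclField.2 (hM k i j)⟩
  let q₀ : MvPolynomial (Fin c.card) (aclField S) :=
    (∑ k : c, (MvPolynomial.X (em k) : MvPolynomial _ (aclField S)) •
      (M₀ k).map MvPolynomial.C).det - 1
  let q := q₀.map (aclField S).subtype
  have hq : ∀ u : Fin c.card → ℂ, MvPolynomial.eval u q = (∑ k : c, u (em k) • M k).det - 1 := by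
    intro u
    simp only [q, q₀, map_sub, map_one, RingHom.map_det]
    congr 2
    ext i j
    simp only [M₀, Matrix.sum_apply, Matrix.smul_apply, RingHom.mapMatrix_apply, Matrix.map_apply,
      smul_eq_mul, map_sum, map_mul, MvPolynomial.eval_map,
      MvPolynomial.eval₂_X]
    refine Finset.sum_congr rfl fun k _ => ?_
    congr 1
    exact MvPolynomial.eval₂_C _ _ _
  have hq0 : q ≠ 0 := fun h => by
    have h0 := hq 0
    rw [h, map_zero] at h0
    have : (∑ k : c, (0 : Fin c.card → ℂ) (em k) • M k) = 0 := by simp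
    have hne : Nonempty (Fin r) := ⟨⟨0, hr⟩⟩
    rw [this, Matrix.det_zero, zero_sub] at h0
    norm_num at h0
  obtain ⟨i, hi⟩ := exists_mem_acl_of_relation S q (fun i => A (em.symm i).1.1 (em.symm i).1.2) hq0
    (fun m => by rw [MvPolynomial.coeff_map]; exact mem_aclField.1 (q₀.coeff m).2) (by
      rw [hq, sub_eq_zero, ← hdet]
      congr 1
      conv_rhs => rw [hA']
      simp)
  refine ⟨(Finset.univ.erase i).image fun j => A (em.symm j).1.1 (em.symm j).1.2, ?_, ?_⟩
  · rw [← hc]
    refine le_trans (Nat.add_le_add_right Finset.card_image_le _) ?_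
    rw [Finset.card_erase_add_one (Finset.mem_univ i), Finset.card_univ, Fintype.card_fin]
  · set T := S ∪ ↑((Finset.univ.erase i).image fun j => A (em.symm j).1.1 (em.symm j).1.2)
    have hall : ∀ k : c, A k.1.1 k.1.2 ∈ aclField T := by
      intro k
      rw [mem_aclField]
      by_cases hk : em k = i
      · rw [← hk, Equiv.symm_apply_apply, hk] at hi
        refine acl_mono (Set.union_subset_union_right S ?_) hi
        rintro _ ⟨j, hj, rfl⟩
        exact Finset.mem_coe.2 (Finset.mem_image.2
          ⟨j, Finset.mem_erase.2 ⟨hj, Finset.mem_univ _⟩, rfl⟩)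
      · exact subset_acl _ (Or.inr (Finset.mem_coe.2 (Finset.mem_image.2
          ⟨em k, Finset.mem_erase.2 ⟨hk, Finset.mem_univ _⟩, by rw [Equiv.symm_apply_apply]⟩)))
    intro a b
    rw [hA', ← mem_aclField, Matrix.sum_apply]
    exact sum_mem fun k _ => mul_mem (hall k)
      (mem_aclField.2 (acl_mono Set.subset_union_left (hM k a b)))

end Vale.Agent.P002.Surface
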